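import Vale.Agent.P304Z.Defs

/-! The hierarchical clustering of the nodes of a rooted tree. -/

open Finset

namespace Vale.Agent.P304Z.RR

open Vale.Agent.P304

variable {N : Type} (T : Tr N)

theorem eq_root {v : N} (h : T.dep v = 0) : v = T.root := by
  by_contra hv
  have := T.dep_par v hv
  omega

theorem ne_root {v : N} (h : 0 < T.dep v) : v ≠ T.root := by
  rintro rfl
  rw [T.dep_root] at h
  exact lt_irrefl _ h

theorem dep_iter (y : N) : ∀ n, n ≤ T.dep y → T.dep (T.par^[n] y) = T.dep y - n := by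
  intro n
  induction n with
  | zero => simp
  | succ n ih =>
    intro h
    have h1 := ih (by omega)
    have h2 := T.dep_par _ (ne_root T (v := T.par^[n] y) (by omega))
    rw [Function.iterate_succ_apply']
    omega

/-- the ancestor at depth `d` -/
def anc (d : ℕ) (y : N) : N := T.par^[T.dep y - d] y

theorem dep_anc {d : ℕ} {y : N} (h : d ≤ T.dep y) : T.dep (anc T d y) = d := by
  rw [anc, dep_iter T y _ (Nat.sub_le _ _)]
  omega

theorem anc_self (y : N) : anc T (T.dep y) y = y := by simp [anc]

theorem anc_anc {d e : ℕ} {y : N} (h : d ≤ e) (he : e ≤ T.dep y) :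
    anc T d (anc T e y) = anc T d y := by
  rw [anc, dep_anc T he, anc, anc, ← Function.iterate_add_apply]
  congr 1
  omega

theorem anc_zero (y : N) : anc T 0 y = T.root := eq_root T (dep_anc T (Nat.zero_le _))

theorem anc_par {d : ℕ} {y : N} (hy : y ≠ T.root) (h : d ≤ T.dep (T.par y)) :
    anc T d (T.par y) = anc T d y := by
  have := T.dep_par y hy
  rw [anc, anc, ← Function.iterate_succ_apply]
  congr 1
  omega

theorem rho_eq (D : ℕ) : ∀ l, l ≤ D → T.rho D * 2 ^ l = T.rho (D - l) := by
  intro l
  induction l with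
  | zero => simp
  | succ l ih =>
    intro h
    rw [pow_succ, ← mul_assoc, ih (by omega), T.rho_half (D - (l + 1)),
      show D - (l + 1) + 1 = D - l by omega]
    ring

variable [Fintype N] [DecidableEq N]

/-- the subtree of a node -/
def sub (v : N) : Finset N := univ.filter fun y => T.dep v ≤ T.dep y ∧ anc T (T.dep v) y = v

theorem mem_sub {v y : N} : y ∈ sub T v ↔ T.dep v ≤ T.dep y ∧ anc T (T.dep v) y = v := by
  simp [sub]

theorem sub_root : sub T T.root = univ := by
  ext y
  simp [mem_sub, T.dep_root, anc_zero]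

theorem sum_ch_eq (S : Finset N) (f : N → ℝ) :
    ∑ y ∈ S, ∑ c ∈ T.ch y, f c = ∑ c ∈ univ.filter (fun c => c ≠ T.root ∧ T.par c ∈ S), f c := by
  simp only [Tr.ch, sum_filter]
  rw [sum_comm]
  refine sum_congr rfl fun c _ => ?_
  by_cases hc : c = T.root
  · simp [hc]
  · simp [hc]

theorem sum_park (mu : N → ℝ) (v : N) : ∑ y ∈ sub T v, park T mu y = mu v := by
  simp only [park, sum_sub_distrib]
  rw [sum_ch_eq]
  have e : univ.filter (fun c => c ≠ T.root ∧ T.par c ∈ sub T v) = (sub T v).erase v := by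
    ext c
    simp only [mem_filter, mem_univ, true_and, mem_erase, mem_sub]
    constructor
    · rintro ⟨h1, h2, h3⟩
      have := T.dep_par c h1
      refine ⟨?_, by omega, by rw [← anc_par T h1 h2, h3]⟩
      rintro rfl
      omega
    · rintro ⟨h1, h2, h3⟩
      have h4 : T.dep v ≠ T.dep c := by
        intro h
        rw [h, anc_self] at h3
        exact h1 h3
      have h5 : c ≠ T.root := ne_root T (by omega)
      have := T.dep_par c h5
      exact ⟨h5, by omega, by rw [anc_par T h5 (by omega), h3]⟩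
  rw [e, ← add_sum_erase _ mu (a := v) ((mem_sub T).2 ⟨le_rfl, anc_self T v⟩)]
  ring

/-- one more than the largest depth -/
def top : ℕ := univ.sup T.dep + 1

omit [DecidableEq N] in
theorem dep_lt_top (y : N) : T.dep y < top T :=
  Nat.lt_succ_of_le (le_sup (f := T.dep) (mem_univ y))

/-- the cluster of `y` at depth `d` -/
def clu (d : ℕ) (y : N) : Finset N := if d ≤ T.dep y then sub T (anc T d y) else {y}

theorem mem_clu {d : ℕ} {y x : N} :
    x ∈ clu T d y ↔ x = y ∨ (d ≤ T.dep y ∧ d ≤ T.dep x ∧ anc T d x = anc T d y) := by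
  unfold clu
  split_ifs with h
  · rw [mem_sub, dep_anc T h]
    constructor
    · exact fun h' => Or.inr ⟨h, h'⟩
    · rintro (rfl | h')
      · exact ⟨h, rfl⟩
      · exact h'.2
  · simp [h]

/-- the hierarchical clustering -/
noncomputable def hier : HST.Hier N where
  D := top T
  cl l := clu T (top T - l)
  rho l := T.rho (top T) * 2 ^ l
  rho_pos l := mul_pos (T.rho_pos _) (by positivity)
  mem_self l x := (mem_clu T).2 (Or.inl rfl)
  eq_of_mem l x y h := by
    rcases (mem_clu T).1 h with rfl | ⟨h1, h2, h3⟩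
    · rfl
    · simp only [clu, if_pos h1, if_pos h2, h3]
  mono l x y h := by
    rcases (mem_clu T).1 h with rfl | ⟨h1, h2, h3⟩
    · exact (mem_clu T).2 (Or.inl rfl)
    · have h4 : top T - (l + 1) ≤ top T - l := by omega
      refine (mem_clu T).2 (Or.inr ⟨h4.trans h1, h4.trans h2, ?_⟩)
      rw [← anc_anc T h4 h1, ← anc_anc T h4 h2, h3]
  cl_zero x := by
    have := dep_lt_top T x
    simp only [clu, Nat.sub_zero]
    rw [if_neg (by omega)]
  cl_top x := by
    simp only [clu, Nat.sub_self, Nat.zero_le, if_true, anc_zero, sub_root]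

theorem hier_geom (j : ℕ) : ∑ l ∈ range (j + 1), (hier T).rho l ≤ 2 * (hier T).rho j := by
  induction j with
  | zero =>
    have := (hier T).rho_pos 0
    simp only [zero_add, range_one, sum_singleton]
    linarith
  | succ j ih =>
    rw [sum_range_succ]
    have : (hier T).rho (j + 1) = 2 * (hier T).rho j := by
      simp only [hier]
      ring
    linarith

omit [Fintype N] [DecidableEq N] in
theorem sum_tail (e : ℕ) : ∀ n, ∑ d ∈ range n, (if e < d then T.rho d else 0) ≤
    T.rho e - (if e < n then T.rho (n - 1) else T.rho e) := by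
  intro n
  induction n with
  | zero => simp
  | succ n ih =>
    rw [sum_range_succ]
    rcases lt_trichotomy e n with h | h | h
    · rw [if_pos h] at ih
      rw [if_pos h, if_pos (by omega), Nat.add_sub_cancel]
      have := T.rho_half (n - 1)
      rw [show n - 1 + 1 = n by omega] at this
      linarith
    · subst h
      rw [if_neg (lt_irrefl _)] at ih
      rw [if_neg (lt_irrefl _), if_pos (by omega), Nat.add_sub_cancel]
      linarith
    · rw [if_neg (by omega)] at ih
      rw [if_neg (by omega), if_neg (by omega)]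
      linarith

theorem level_le (d : ℕ) (g : Finset N → ℝ) (hg : ∀ C, 0 ≤ g C) :
    ∑ C ∈ univ.image (clu T d), g C ≤
      ∑ v, ((if T.dep v = d then g (sub T v) else 0) + if T.dep v < d then g {v} else 0) := by
  have hs : univ.image (clu T d) ⊆ (univ.filter fun v => T.dep v = d).image (sub T) ∪
      (univ.filter fun v => T.dep v < d).image fun v => ({v} : Finset N) := by
    intro C hC
    obtain ⟨y, -, rfl⟩ := mem_image.1 hC
    rw [mem_union]
    unfold clu
    split_ifs with h
    · exact Or.inl (mem_image.2 ⟨anc T d y, by simp [dep_anc T h], rfl⟩)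
    · exact Or.inr (mem_image.2 ⟨y, by simpa using h, rfl⟩)
  refine (sum_le_sum_of_subset_of_nonneg hs fun C _ _ => hg C).trans ?_
  rw [sum_add_distrib, ← sum_filter, ← sum_filter]
  have h1 := sum_union_inter (s₁ := (univ.filter fun v => T.dep v = d).image (sub T))
    (s₂ := (univ.filter fun v => T.dep v < d).image fun v => ({v} : Finset N)) (f := g)
  have h2 := sum_nonneg (s := (univ.filter fun v => T.dep v = d).image (sub T) ∩
    (univ.filter fun v => T.dep v < d).image fun v => ({v} : Finset N)) fun C _ => hg C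
  have h3 := sum_image_le_of_nonneg (s := univ.filter fun v => T.dep v = d) (g := sub T) (f := g)
    fun C _ => hg C
  have h4 := sum_image_le_of_nonneg (s := univ.filter fun v => T.dep v < d)
    (g := fun v => ({v} : Finset N)) (f := g) fun C _ => hg C
  linarith

theorem tn_le (mu mu' : N → ℝ) :
    (hier T).tn (park T mu) (park T mu') ≤ 4 * tmv T mu mu' := by
  set g : Finset N → ℝ := fun C => |∑ y ∈ C, park T mu y - ∑ y ∈ C, park T mu' y| with hg
  have h1 : (hier T).tn (park T mu) (park T mu')
      ≤ ∑ d ∈ range (top T + 1), T.rho d * ∑ C ∈ univ.image (clu T d), g C := by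
    rw [← sum_range_reflect, sum_range_succ]
    refine le_add_of_le_of_nonneg (le_of_eq ?_)
      (mul_nonneg (T.rho_pos _).le (sum_nonneg fun C _ => abs_nonneg _))
    refine sum_congr rfl fun l hl => ?_
    have hl' : l ≤ top T := (mem_range.1 hl).le
    simp only [hier, HST.Hier.P, Nat.add_sub_cancel]
    rw [rho_eq T _ l hl']
  have h2 : ∑ d ∈ range (top T + 1), T.rho d * ∑ C ∈ univ.image (clu T d), g C
      ≤ ∑ v, (T.rho (T.dep v) * g (sub T v) + T.rho (T.dep v) * g {v}) := by
    refine (sum_le_sum fun d _ => mul_le_mul_of_nonneg_left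
      (level_le T d g fun C => abs_nonneg _) (T.rho_pos d).le).trans ?_
    simp only [mul_sum]
    rw [sum_comm]
    refine sum_le_sum fun v _ => ?_
    simp only [mul_add, sum_add_distrib, mul_ite, mul_zero]
    refine add_le_add ?_ ?_
    · rw [sum_ite_eq]
      split_ifs
      · exact le_rfl
      · exact mul_nonneg (T.rho_pos _).le (abs_nonneg _)
    · have h3 := sum_tail T (T.dep v) (top T + 1)
      have h4 : 0 ≤ (if T.dep v < top T + 1 then T.rho (top T + 1 - 1) else T.rho (T.dep v)) := by
        split_ifs <;> exact (T.rho_pos _).le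
      have h5 : ∑ d ∈ range (top T + 1), (if T.dep v < d then T.rho d * g {v} else 0)
          = (∑ d ∈ range (top T + 1), if T.dep v < d then T.rho d else 0) * g {v} := by
        rw [sum_mul]
        exact sum_congr rfl fun d _ => by split_ifs <;> simp
      rw [h5]
      exact mul_le_mul_of_nonneg_right (by linarith) (abs_nonneg _)
  have h3 : ∀ v, g (sub T v) = |mu' v - mu v| := fun v => by
    simp only [hg, sum_park]
    exact abs_sub_comm _ _
  have h4 : ∀ v, g {v} ≤ |mu' v - mu v| + ∑ c ∈ T.ch v, |mu' c - mu c| := fun v => by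
    simp only [hg, sum_singleton, park]
    have e : mu v - ∑ c ∈ T.ch v, mu c - (mu' v - ∑ c ∈ T.ch v, mu' c)
        = -(mu' v - mu v) + ∑ c ∈ T.ch v, (mu' c - mu c) := by
      rw [sum_sub_distrib]
      ring
    rw [e]
    refine (abs_add_le _ _).trans (add_le_add (abs_neg _).le (abs_sum_le_sum_abs _ _))
  have h5 : ∑ v, T.rho (T.dep v) * ∑ c ∈ T.ch v, |mu' c - mu c| ≤ 2 * tmv T mu mu' := by
    have e : ∑ v, T.rho (T.dep v) * ∑ c ∈ T.ch v, |mu' c - mu c|
        = ∑ v, ∑ c ∈ T.ch v, 2 * (T.rho (T.dep c) * |mu' c - mu c|) := by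
      refine sum_congr rfl fun v _ => ?_
      rw [mul_sum]
      refine sum_congr rfl fun c hc => ?_
      obtain ⟨hc1, hc2⟩ := (mem_filter.1 hc).2
      rw [T.dep_par c hc1, hc2, T.rho_half (T.dep v)]
      ring
    rw [e, sum_ch_eq, tmv, mul_sum]
    exact sum_le_sum_of_subset_of_nonneg (filter_subset _ _) fun c _ _ =>
      mul_nonneg zero_le_two (mul_nonneg (T.rho_pos _).le (abs_nonneg _))
  have h6 : ∑ v, (T.rho (T.dep v) * g (sub T v) + T.rho (T.dep v) * g {v})
      ≤ ∑ v, (2 * (T.rho (T.dep v) * |mu' v - mu v|)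
        + T.rho (T.dep v) * ∑ c ∈ T.ch v, |mu' c - mu c|) := by
    refine sum_le_sum fun v _ => ?_
    have := mul_le_mul_of_nonneg_left (h4 v) (T.rho_pos (T.dep v)).le
    rw [h3]
    linarith
  rw [sum_add_distrib (f := fun v => 2 * (T.rho (T.dep v) * |mu' v - mu v|)), ← mul_sum] at h6
  have h7 : ∑ v, T.rho (T.dep v) * |mu' v - mu v| = tmv T mu mu' := rfl
  linarith

variable {T}

theorem park_le {k : ℕ} {mu : N → ℝ} (h : Flow T k mu) (v : N) : park T mu v ≤ mu v :=
  sub_le_self _ (sum_nonneg fun c _ => h.nonneg c)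

theorem park_nonneg {k : ℕ} {mu : N → ℝ} (h : Flow T k mu) (v : N) : 0 ≤ park T mu v :=
  sub_nonneg.2 (h.sub v)

theorem park_total {k : ℕ} {mu : N → ℝ} (h : Flow T k mu) : ∑ v, park T mu v = k := by
  rw [← sub_root T, sum_park, h.root]

theorem chain {k : ℕ} {mu : N → ℝ} (h : Flow T k mu) {X : Type} [MetricSpace X] {loc : N → X}
    {K : ℝ}
    (hl : ∀ v, v ≠ T.root → 0 < mu v → dist (loc v) (loc (T.par v)) ≤ K * T.rho (T.dep v))
    {y : N} (hy : 0 < mu y) : ∀ n, n ≤ T.dep y → 0 < mu (T.par^[n] y) ∧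
      dist (loc y) (loc (T.par^[n] y)) ≤ K * (T.rho (T.dep y - n) - T.rho (T.dep y)) := by
  intro n
  induction n with
  | zero => simpa using hy
  | succ n ih =>
    intro hn
    obtain ⟨h1, h2⟩ := ih (by omega)
    have hd := dep_iter T y n (by omega)
    have hr : T.par^[n] y ≠ T.root := ne_root T (by omega)
    rw [Function.iterate_succ_apply']
    constructor
    · refine h1.trans_le (le_trans ?_ (h.sub _))
      exact single_le_sum (f := mu) (fun c _ => h.nonneg c) (mem_filter.2 ⟨mem_univ _, hr, rfl⟩)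
    · have h3 := hl _ hr h1
      have h4 := dist_triangle (loc y) (loc (T.par^[n] y)) (loc (T.par (T.par^[n] y)))
      rw [hd] at h3
      rw [T.rho_half (T.dep y - (n + 1)), show T.dep y - (n + 1) + 1 = T.dep y - n by omega]
      linarith

theorem chain_anc {k : ℕ} {mu : N → ℝ} (h : Flow T k mu) {X : Type} [MetricSpace X] {loc : N → X}
    {K : ℝ} (hK : 0 ≤ K)
    (hl : ∀ v, v ≠ T.root → 0 < mu v → dist (loc v) (loc (T.par v)) ≤ K * T.rho (T.dep v))
    {y : N} (hy : 0 < mu y) {d : ℕ} (hd : d ≤ T.dep y) :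
    0 < mu (anc T d y) ∧ dist (loc y) (loc (anc T d y)) ≤ K * T.rho d := by
  obtain ⟨h1, h2⟩ := chain h hl hy (T.dep y - d) (Nat.sub_le _ _)
  refine ⟨h1, h2.trans ?_⟩
  rw [show T.dep y - (T.dep y - d) = d by omega]
  exact mul_le_mul_of_nonneg_left (sub_le_self _ (T.rho_pos _).le) hK

end Vale.Agent.P304Z.RR
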